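import Vale.Agent.N260.Defs
import Vale.Agent.P260Z.Dav.Main

/-!
# P260: covering space lemmas
-/

noncomputable section

namespace Vale.Agent.N260

open Set Topology Vale.Agent.P260Z

variable {E E' X X' : Type} [TopologicalSpace E] [TopologicalSpace E'] [TopologicalSpace X]
  [TopologicalSpace X']

theorem hom_congr {a b a' b' : X} {γ δ : Path a b} {γ' δ' : Path a' b'} (h : γ'.Homotopic δ')
    (e1 : ∀ t, γ t = γ' t) (e2 : ∀ t, δ t = δ' t) : γ.Homotopic δ := by
  have h1 : γ.toContinuousMap = γ'.toContinuousMap := ContinuousMap.ext e1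
  have h2 : δ.toContinuousMap = δ'.toContinuousMap := ContinuousMap.ext e2
  change γ.toContinuousMap.HomotopicRel δ.toContinuousMap {0, 1}
  rw [h1, h2]
  exact h

/-- two points of a fibre which are joined by a path with null-homotopic image are equal -/
theorem end_eq {p : E → X} (hp : IsCoveringMap p) {a b : E} (Γ : Path a b) (h : p a = p b)
    (hn : ((Γ.map hp.continuous).cast rfl h).Homotopic (Path.refl _)) : b = a := by
  have h1 := hp.liftPath_apply_one_eq_of_homotopicRel hn a (by simp) (by simp)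
  have h2 : Γ.toContinuousMap = hp.liftPath ((Γ.map hp.continuous).cast rfl h).toContinuousMap a
      (by simp) := (hp.eq_liftPath_iff' _).2 ⟨rfl, Γ.source⟩
  have h3 : ContinuousMap.const _ a = hp.liftPath (Path.refl (p a)).toContinuousMap a (by simp) :=
    (hp.eq_liftPath_iff' _).2 ⟨rfl, rfl⟩
  rw [← h2, ← h3] at h1
  exact Γ.target.symm.trans h1

/-- a map is injective on fundamental groups iff its lift is injective on a fibre -/
theorem pi_inj_iff [SimplyConnectedSpace E] [SimplyConnectedSpace E'] {p : E → X} {p' : E' → X'}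
    (hp : IsCoveringMap p) (hp' : IsCoveringMap p') (f : C(X, X')) {F : E → E'}
    (hF : Continuous F) (h : ∀ z, p' (F z) = f (p z)) (e : E) :
    Function.Injective (FundamentalGroup.map f (p e)) ↔
      ∀ e', p e = p e' → F e' = F e → e' = e := by
  constructor
  · intro hi e' h1 h2
    let Γ : Path e e' := PathConnectedSpace.somePath e e'
    refine end_eq hp Γ h1 (Quotient.exact (s := Path.Homotopic.setoid _ _) ?_)
    refine hi (a₁ := FundamentalGroup.fromPath ⟦(Γ.map hp.continuous).cast rfl h1⟧) (a₂ := 1) ?_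
    rw [map_one]
    have h3 := (SimplyConnectedSpace.paths_homotopic ((Γ.map hF).cast rfl h2.symm)
      (Path.refl _)).map ⟨p', hp'.continuous⟩
    exact Quotient.sound (s := Path.Homotopic.setoid _ _)
      (hom_congr h3 (fun t => (h _).symm) fun t => (h _).symm)
  · intro hi
    refine (injective_iff_map_eq_one _).2 fun γ hγ => ?_
    induction γ using Quotient.inductionOn with
    | h γ =>
    have hγ' : (γ.map f.continuous).Homotopic (Path.refl _) :=
      Quotient.exact (s := Path.Homotopic.setoid _ _) hγ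
    let L := hp.liftPath γ.toContinuousMap e γ.source
    have hL : ∀ t, p (L t) = γ t := fun t => congrFun (hp.liftPath_lifts _ _ _) t
    let Γ : Path e (L 1) := ⟨L, hp.liftPath_zero _ _ _, rfl⟩
    have h1 : p e = p (L 1) := ((hL 1).trans γ.target).symm
    have h2 : F (L 1) = F e := by
      refine end_eq hp' (Γ.map hF) (by rw [h, h, h1]) ?_
      exact hom_congr hγ' (fun t => (h _).trans (congrArg f (hL t))) fun t => h e
    have h3 := (SimplyConnectedSpace.paths_homotopic (Γ.cast rfl (hi _ h1 h2).symm)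
      (Path.refl _)).map ⟨p, hp.continuous⟩
    exact Quotient.sound (s := Path.Homotopic.setoid _ _)
      (hom_congr h3 (fun t => (hL t).symm) fun t => rfl)

/-- a lift of a map of the quotients is equivariant for a homomorphism -/
theorem lift_hom2 {Γ Γ' : Type} [Group Γ] [Group Γ'] [MulAction Γ E] [MulAction Γ' E']
    [PreconnectedSpace E] {p : E → X} {p' : E' → X'}
    (hp : IsQuotientCoveringMap p Γ) (hp' : IsQuotientCoveringMap p' Γ') (f : X → X')
    {F : E → E'} (hF : Continuous F) (hz : ∀ z, p' (F z) = f (p z)) (z0 : E) :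
    ∃ θ : Γ →* Γ', ∀ (g : Γ) z, F (g • z) = θ g • F z := by
  have := hp'.isCancelSMul
  have key : ∀ g : Γ, ∃ k : Γ', ∀ z, F (g • z) = k • F z := by
    intro g
    have h1 : p' (F (g • z0)) = p' (F z0) := by rw [hz, hz, hp.map_smul]
    obtain ⟨k, hk⟩ := hp'.apply_eq_iff_mem_orbit.1 h1
    refine ⟨k, fun z => ?_⟩
    have := hp'.isCoveringMap.eq_of_comp_eq (g₁ := fun z => F (g • z)) (g₂ := fun z => k • F z)
      (hF.comp (hp.continuous_const_smul g)) ((hp'.continuous_const_smul k).comp hF)
      (funext fun z => by simp only [Function.comp_apply, hp'.map_smul, hz, hp.map_smul]) z0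
      hk.symm
    exact congrFun this z
  choose θ hθ using key
  refine ⟨MonoidHom.mk' θ fun a b => ?_, hθ⟩
  refine IsCancelSMul.right_cancel _ _ (F z0) ?_
  rw [← hθ, mul_smul, hθ, hθ, mul_smul]

theorem HasKlein.of_homeo (h : HasKlein X) (e : X ≃ₜ X') : HasKlein X' := by
  obtain ⟨f, h1, h2⟩ := h
  refine ⟨(e : C(X, X')).comp f, e.injective.comp h1, fun x => ?_⟩
  refine (injective_iff_map_eq_one _).2 fun γ hγ => (injective_iff_map_eq_one _).1 (h2 x) γ ?_
  induction γ using Quotient.inductionOn with
  | h γ =>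
  have h3 : (γ.map ((e : C(X, X')).comp f).continuous).Homotopic (Path.refl _) :=
    Quotient.exact (s := Path.Homotopic.setoid _ _) hγ
  exact Quotient.sound (s := Path.Homotopic.setoid _ _) (hom_congr (h3.map (e.symm : C(X', X)))
    (fun t => (e.symm_apply_apply _).symm) fun t => (e.symm_apply_apply _).symm)

section Quot

variable {Γ : Type} [Group Γ] [MulAction Γ E]

theorem qc (hA : Nice Γ E) : IsQuotientCoveringMap (Quotient.mk (MulAction.orbitRel Γ E)) Γ := by
  obtain ⟨t2, lc, sc, cts, pd, fr, -⟩ := hA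
  exact isQuotientCoveringMap_quotientMk_of_properlyDiscontinuousSMul

/-- the quotient is a closed aspherical manifold with fundamental group `Γ` -/
theorem closed (hch : Nonempty (ChartedSpace E4 E)) (hA : Nice Γ E) (hae : AE (univ : Set E)) :
    Nonempty (ChartedSpace E4 (MulAction.orbitRel.Quotient Γ E)) ∧
      T2Space (MulAction.orbitRel.Quotient Γ E) ∧ CompactSpace (MulAction.orbitRel.Quotient Γ E) ∧
      ConnectedSpace (MulAction.orbitRel.Quotient Γ E) ∧
      Aspherical (MulAction.orbitRel.Quotient Γ E) ∧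
      ∀ x, Nonempty (FundamentalGroup (MulAction.orbitRel.Quotient Γ E) x ≃* Γ) := by
  obtain ⟨ch⟩ := hch
  have hq := qc hA
  obtain ⟨t2, lc, sc, cts, pd, fr, K, hK, hKc⟩ := hA
  have hc : ContractibleSpace E := ae3.contr hae
  refine ⟨⟨inferInstance⟩, inferInstance, ⟨?_⟩, ?_, ⟨E, inferInstance, _, hq.isCoveringMap,
    hq.surjective, hc⟩, fun x => ?_⟩
  · have := hK.image hq.continuous
    refine this.of_isClosed_subset isClosed_univ fun y _ => ?_
    obtain ⟨z, rfl⟩ := hq.surjective y
    obtain ⟨g, hg⟩ := hKc z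
    exact ⟨_, hg, Quotient.sound ⟨g, rfl⟩⟩
  · exact hq.surjective.connectedSpace hq.continuous
  · obtain ⟨z, rfl⟩ := hq.surjective x
    exact ⟨(hq.fundamentalGroupEquiv ⟨z, rfl⟩).trans (MulEquiv.inv' Γ).symm⟩

/-- the covering map between the quotients by two subgroups -/
theorem tower {A B : Subgroup Γ} (hAB : A ≤ B) (hA : Nice A E) (hB : Nice B E)
    [T2Space (MulAction.orbitRel.Quotient A E)] [CompactSpace (MulAction.orbitRel.Quotient A E)]
    [T2Space (MulAction.orbitRel.Quotient B E)] :
    ∃ p : MulAction.orbitRel.Quotient A E → MulAction.orbitRel.Quotient B E,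
      IsCoveringMap p ∧ Function.Surjective p := by
  refine ⟨Quotient.map' id fun x y ⟨g, hg⟩ => ⟨⟨g.1, hAB g.2⟩, hg⟩,
    isLocalHomeomorph_iff_isCoveringMap.1 ?_, fun y => ?_⟩
  · rw [isLocalHomeomorph_iff_isLocalHomeomorphOn_univ, ← (qc hA).surjective.range_eq,
      ← image_univ]
    exact IsLocalHomeomorphOn.of_comp_right
      (qc hB).isCoveringMap.isLocalHomeomorph.isLocalHomeomorphOn
      (qc hA).isCoveringMap.isLocalHomeomorph.isLocalHomeomorphOn
  · obtain ⟨z, rfl⟩ := (qc hB).surjective y
    exact ⟨Quotient.mk _ z, rfl⟩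

end Quot

end Vale.Agent.N260
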