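import Vale.Agent.N260.Plane
import Vale.Agent.P260Z.Main

/-!
# P260: the concrete chambers
-/

noncomputable section

namespace Vale.Agent.N260

open Set Topology Vale.Agent.P260Z
open scoped Pointwise Classical

section Tri

open L2 L2.CubA

variable {G Z : Type} [Group G] [TopologicalSpace Z] [MulAction G Z]

/-- two simplices of one dimension in different orbits -/
theorem two_orbits (T : Tri G Z) (fr : ∀ (g : G) (s : T.S), g • s = s → g = 1) {σ : Finset T.V}
    (hσ : T.K.face σ) (h : 2 < σ.card) :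
    ∃ s t : T.S, s.1.card = t.1.card ∧ ∀ g : G, g • s ≠ t := by
  by_contra hn
  push Not at hn
  have vf : ∀ (g : G), ∀ v ∈ σ, g • v = v → g = 1 := fun g v hv e =>
    fr g ⟨{v}, T.K.down hσ (by simpa) (by simp)⟩ (Subtype.ext
      (show g • ({v} : Finset T.V) = {v} by simp [e]))
  have key : ∀ a ∈ σ, ∀ b ∈ σ, ∀ c ∈ σ, a ≠ b → a ≠ c → b ≠ c →
      ∃ g : G, g • a = b ∧ g • b = c := fun a ha b hb c hc h1 h2 h3 => by
    obtain ⟨g, hg⟩ := hn ⟨{a, b}, T.K.down hσ (by simp [Finset.insert_subset_iff, ha, hb])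
      (by simp)⟩ ⟨{b, c}, T.K.down hσ (by simp [Finset.insert_subset_iff, hb, hc]) (by simp)⟩
      (by simp [h1, h3])
    have h4 : g • ({a, b} : Finset T.V) = {b, c} := congrArg Subtype.val hg
    have h5 : g • a = b ∨ g • a = c := by
      simpa [h4] using Finset.smul_mem_smul_finset (a := g) (Finset.mem_insert_self a {b})
    have h6 : g • b = b ∨ g • b = c := by
      simpa [h4] using Finset.smul_mem_smul_finset (a := g)
        (Finset.mem_insert_of_mem (b := a) (Finset.mem_singleton_self b))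
    rcases h6 with h6 | h6
    · rw [vf g b hb h6, one_smul] at h5
      exact (h5.elim h1 h2).elim
    · exact ⟨g, h5.resolve_right fun e => h1 (MulAction.injective g (e.trans h6.symm)), h6⟩
  obtain ⟨a, ha, b, hb, c, hc, h1, h2, h3⟩ := Finset.two_lt_card.1 h
  obtain ⟨g, e1, e2⟩ := key a ha b hb c hc h1 h2 h3
  obtain ⟨k, e3, e4⟩ := key b hb c hc a ha h3 h1.symm h2.symm
  obtain rfl : g = k := inv_mul_eq_one.1 (vf _ b hb (by rw [mul_smul, e3, ← e2, inv_smul_smul]))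
  have h4 := fr g ⟨{a, b, c}, T.K.down hσ (by simp [Finset.insert_subset_iff, ha, hb, hc])
    (by simp)⟩ (Subtype.ext (show g • ({a, b, c} : Finset T.V) = {a, b, c} by
      simp only [Finset.smul_finset_insert, Finset.smul_finset_singleton, e1, e2, e4]
      ext
      simp only [Finset.mem_insert, Finset.mem_singleton]
      tauto))
  rw [h4, one_smul] at e1
  exact h1 e1

variable [T2Space Z] [LocallyCompactSpace Z] [ContinuousConstSMul G Z]
  [ProperlyDiscontinuousSMul G Z] [Nonempty Z]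

theorem simp_tri (Q : Simp G Z) : ∃ (T : Tri G Z) (σ : Finset T.V), T.K.face σ ∧ 2 < σ.card := by
  have := Q.fin
  obtain ⟨bc, hbc⟩ := Q.exists_bc
  have cp := isCompact_stdSimplex ℝ (Fin 4)
  set C : G × Q.J → Set Z := fun p => (fun t => p.1 • Q.ψ p.2 t) '' stdSimplex ℝ (Fin 4) with hC
  have c1 : ∀ p : G × Q.J, ContinuousOn (fun t => p.1 • Q.ψ p.2 t) (stdSimplex ℝ (Fin 4)) :=
    fun p => (Q.cont p.2).const_smul p.1
  have c2 : ∀ p, IsCompact (C p) := fun p => cp.image_of_continuousOn (c1 p)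
  have lf : LocallyFinite C := fun z => by
    obtain ⟨N, hN, hz⟩ := exists_compact_mem_nhds z
    refine ⟨N, hz, ((finite_iUnion fun a : Q.J =>
      ProperlyDiscontinuousSMul.finite_disjoint_inter_image (Γ := G)
        (cp.image_of_continuousOn (Q.cont a)) hN).prod (finite_univ (α := Q.J))).subset ?_⟩
    rintro ⟨g, a⟩ ⟨w, ⟨t, ht, e⟩, hw⟩
    exact ⟨mem_iUnion.2 ⟨a, w, ⟨_, ⟨t, ht, rfl⟩, e⟩, hw⟩, trivial⟩
  have cb : Continuous bc := by
    refine lf.continuous (eq_univ_of_forall fun z => ?_) (fun p => (c2 p).isClosed) fun p =>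
      contOn_image cp (c1 p) (ContinuousOn.congr (f := co fun j => p.1 • Q.vx p.2 j)
        (Continuous.continuousOn ?_) (hbc p.1 p.2))
    · obtain ⟨g, a, t, ht, e⟩ := Q.cover z
      exact mem_iUnion.2 ⟨(g, a), t, ht, e⟩
    · refine continuous_pi fun v => continuous_finsetSum _ fun j _ => ?_
      split_ifs
      exacts [continuous_apply j, continuous_const]
  have hi : Function.Injective bc := fun z z' e => by
    obtain ⟨g, a, t, ht, rfl⟩ := Q.cover z
    obtain ⟨g', a', t', ht', rfl⟩ := Q.cover z'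
    rw [hbc g a t ht, hbc g' a' t' ht'] at e
    exact (Q.compat _ _ _ _ _ ht _ ht').2 e
  have hl := Function.leftInverse_invFun hi
  obtain ⟨-, a0, -⟩ := Q.cover (Classical.arbitrary Z)
  refine ⟨{
    V := Z, K := Q.cx, ι := Function.invFun bc, bc := bc, bc_cont := cb, ι_bc := hl
    face_smul := fun g s t ⟨⟨v, hv⟩, g', a, h⟩ e => ⟨⟨g • v, (e _).2 (by rwa [inv_smul_smul])⟩,
      g * g', a, fun w hw => ?_⟩
    ι_cont := fun x hx => ?_
    bc_mem := fun z => ?_
    bc_ι := fun x hx => ?_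
    bc_smul := fun g z v => ?_ }, Finset.univ.map ⟨Q.vx a0, Q.inj a0⟩,
    ⟨by simp, 1, a0, fun v hv => by simpa using hv⟩, by simp⟩
  · obtain ⟨j, hj⟩ := h _ ((e w).1 hw)
    exact ⟨j, by rw [mul_smul, hj, smul_inv_smul]⟩
  · obtain ⟨v, hv⟩ : ∃ v, x v ≠ 0 := by
      obtain ⟨-, s, -, -, h⟩ := hx
      obtain ⟨v, -, hv⟩ := Finset.exists_ne_zero_of_sum_ne_zero (h.trans_ne one_ne_zero)
      exact ⟨v, hv⟩
    have k1 := (Q.fin_vx v).isCompact_biUnion fun p _ => c2 p
    have k2 : ∀ y ∈ Q.cx.real, y v ≠ 0 →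
        y ∈ bc '' ⋃ p ∈ {p : G × Q.J | ∃ j, p.1 • Q.vx p.2 j = v}, C p := fun y hy h => by
      obtain ⟨g, a, t, ht, rfl⟩ := Q.exists_co hy
      obtain ⟨j, -, hj⟩ := Finset.exists_ne_zero_of_sum_ne_zero h
      exact ⟨_, mem_biUnion (x := (g, a)) ⟨j, by_contra fun e => hj (if_neg e)⟩ ⟨t, ht, rfl⟩,
        hbc g a t ht⟩
    refine (contOn_image k1 cb.continuousOn (continuousOn_id.congr fun z _ => hl z) x
      (k2 x hx hv)).mono_of_mem_nhdsWithin ?_
    filter_upwards [self_mem_nhdsWithin, mem_nhdsWithin_of_mem_nhds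
      ((continuous_apply v).continuousAt.eventually_ne hv)] with y h1 h2 using k2 y h1 h2
  · obtain ⟨g, a, t, ht, rfl⟩ := Q.cover z
    exact hbc g a t ht ▸ Q.co_mem g a ht
  · obtain ⟨g, a, t, ht, rfl⟩ := Q.exists_co hx
    rw [← hbc g a t ht, hl]
  · obtain ⟨g', a, t, ht, rfl⟩ := Q.cover z
    rw [← mul_smul, hbc _ a t ht, hbc _ a t ht]
    simp only [co, mul_smul, smul_left_cancel_iff]

theorem cub_tri (Q : Cub G Z) : ∃ (T : Tri G Z) (σ : Finset T.V), T.K.face σ ∧ 2 < σ.card := by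
  have := Q.fin
  have e : ∀ (g : G) i σ ε, ∀ t ∈ stdSimplex ℝ (Fin 4),
      co (fun j => g • Q.φ i (pt (sc σ ε (fl j)))) t = Q.cw g i (sym σ ε (std t)) :=
    fun g i σ ε t ht => funext fun v => by
      rw [Cub.cw, sum_w ht]
      simp [co]
  refine simp_tri {
    J := Q.I × Equiv.Perm (Fin 3) × (Fin 3 → Bool)
    fin := inferInstance
    ψ := fun a t => Q.φ a.1 (sym a.2.1 a.2.2 (std t))
    vx := fun a j => Q.φ a.1 (pt (sc a.2.1 a.2.2 (fl j)))
    cont := fun a => (Q.cont a.1).comp (Continuous.continuousOn ?_)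
      fun t ht => sym_mem _ _ (std_mem ht)
    inj := fun a j j' h => fl_inj ((sc_bij _ _).1 (pt_inj (Q.inj _ (pt_mem _) (pt_mem _) h)))
    cover := fun z => ?_
    compat := fun g g' a a' t ht t' ht' => ?_ }
  · refine continuous_pi fun k => ?_
    unfold sym std
    split_ifs <;> fun_prop
  · obtain ⟨g, i, p, hp, rfl⟩ := Q.cover z
    obtain ⟨σ, ε, t, ht, rfl⟩ := exists_std hp
    exact ⟨g, (i, σ, ε), t, ht, rfl⟩
  · rw [e _ _ _ _ t ht, e _ _ _ _ t' ht']
    exact ⟨Cub.cw_eq (sym_mem _ _ (std_mem ht)) (sym_mem _ _ (std_mem ht')),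
      Cub.eq_of_cw (sym_mem _ _ (std_mem ht)) (sym_mem _ _ (std_mem ht'))⟩

end Tri

open L3 L3.Pln

attribute [local instance] actE

theorem pl_inj (h : Pos) (hi : Iot) {T : TG} {s : Psi} (hT : T.Is1 s) (h1 : T.Api1) :
    Function.Injective (pl T) := by
  have hq : Function.Injective q := fun u v e => Prod.ext (congrFun e 0) (congrFun e 1)
  have mix : ∀ u v, (∃ a, tH (kl a (q u)) < 11) → (¬ ∃ a, tH (kl a (q v)) < 11) →
      pl T u ≠ pl T v := fun u v ⟨a, ha⟩ hv e => by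
    rw [pl_t h ha, pl_f h hT h1 (far_le' hv)] at e
    rcases (h1.pt_eq (mem_t h hi hT ha) (mem_f hT (far_le' hv))).1 e with ⟨h2, -⟩ |
      ⟨e, l, -, l', -, h2, h3, h4, -, h5⟩
    · cases h2
    · rw [hT.Wo_eq] at h4
      rw [hT.θ_eq] at h5
      cases e
      · cases h3
      · cases h3
      · exact hv ⟨kj l', (congrArg tH h5).trans_lt h4.2.2.1⟩
      · cases h3
  intro u v e
  by_cases hu : ∃ a, tH (kl a (q u)) < 11 <;> by_cases hv : ∃ a, tH (kl a (q v)) < 11
  · obtain ⟨a, ha⟩ := hu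
    obtain ⟨b, hb⟩ := hv
    rw [pl_t h ha, pl_t h hb] at e
    rcases (h1.pt_eq (mem_t h hi hT ha) (mem_t h hi hT hb)).1 e with ⟨-, h2, h3⟩ |
      ⟨e, l, hl, l', -, h2, h3, h4, -⟩
    · have h4 := lam_one h2 (y := iot (toU (kl b (q v)))) (hi.two _) (by
        rw [← h3, hi.two, show toU (kl a (q u)) 2 = -6 from rfl]
        norm_num)
      rw [h4, act_one] at h3
      have h5 := congrArg kj (inv_mul_eq_one.1 h4)
      rw [kj_jj, kj_jj, inv_inj] at h5
      subst h5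
      have h6 := congrArg iot h3
      rw [hi.iot_iot, hi.iot_iot] at h6
      have h7 : kl a (q u) = kl a (q v) := funext fun j => by
        have := congrFun h6 j
        fin_cases j <;> simpa [toU] using this
      have h8 := congrArg (kl a⁻¹) h7
      rw [← kl_mul, ← kl_mul, inv_mul_cancel, kl_one, kl_one] at h8
      exact hq h8
    · rw [hT.Wo_eq] at h4
      cases e
      · exact absurd h4.2.2 (lam_not hl (hi.two _) (by norm_num) (by norm_num))
      · exact absurd h4.2.2 (lam_not hl (hi.two _) (by norm_num) (by norm_num))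
      · cases h3
      · cases h2
  · exact absurd e (mix u v hu hv)
  · exact absurd e.symm (mix v u hv hu)
  · rw [pl_f h hT h1 (far_le' hu), pl_f h hT h1 (far_le' hv)] at e
    exact hq (h1.inj 1 false (mem_f hT (far_le' hu)) (mem_f hT (far_le' hv)) e)

theorem cov : ∃ ρ : ℝ × ℝ → Klein, IsQuotientCoveringMap ρ (Lam false) := by
  have hs : ∀ (j : Lam false) (u : ℝ × ℝ),
      j • u = ((-1) ^ (kj j).n * u.1 + 40 * (kj j).m, u.2 + 40 * (kj j).n) := fun j u => by
    rw [← Int.cast_negOnePow]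
    rfl
  have hr : ∀ p q : ℝ × ℝ, (∃ m n : ℤ, q = ((-1) ^ n * p.1 + m, p.2 + n)) ↔
      MulAction.orbitRel (Lam false) (ℝ × ℝ) ((40 : ℝ) • q) ((40 : ℝ) • p) := fun p q => by
    constructor
    · rintro ⟨m, n, rfl⟩
      refine ⟨⟨jj ⟨m, n⟩, _, rfl⟩, (hs _ _).trans ?_⟩
      ext <;> simp <;> ring
    · rintro ⟨j, e⟩
      have e1 := (hs _ _).symm.trans e
      have e2 := congrArg Prod.fst e1
      have e3 := congrArg Prod.snd e1
      simp only [Prod.smul_fst, Prod.smul_snd, smul_eq_mul] at e2 e3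
      exact ⟨(kj j).m, (kj j).n, Prod.ext (by linarith) (by linarith)⟩
  have he : Equivalence fun p q : ℝ × ℝ => ∃ m n : ℤ, q = ((-1) ^ n * p.1 + m, p.2 + n) :=
    ⟨fun p => (hr _ _).2 (Setoid.refl' _ _), fun h => (hr _ _).2 (Setoid.symm' _ ((hr _ _).1 h)),
      fun h h' => (hr _ _).2 (Setoid.trans' _ ((hr _ _).1 h') ((hr _ _).1 h))⟩
  refine ⟨fun u => Quot.mk _ ((40 : ℝ)⁻¹ • u), isQuotientMap_quot_mk.comp
    (Homeomorph.smulOfNeZero (40 : ℝ)⁻¹ (by norm_num)).isQuotientMap, ⟨fun j => ?_⟩,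
    fun {u v} => ?_, fun e => ⟨Metric.ball e 1, Metric.ball_mem_nhds e one_pos, ?_⟩⟩
  · simp only [hs]
    fun_prop
  · rw [eq_comm, he.quot_mk_eq_iff, hr, smul_inv_smul₀ (by norm_num), smul_inv_smul₀ (by norm_num)]
    rfl
  · rintro ⟨_, a, rfl⟩ ⟨_, ⟨u, hu, rfl⟩, h⟩
    have h1 := (dist_triangle_right _ _ _).trans_lt (add_lt_add h hu)
    simp only [hs, kj_jj, Prod.dist_eq, max_lt_iff, Real.dist_eq, abs_lt] at h1
    have h2 : a.n = 0 := by
      have h3 : (-1 : ℝ) < a.n := by linarith [h1.2.1]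
      have h4 : (a.n : ℝ) < 1 := by linarith [h1.2.2]
      norm_cast at h3 h4
      omega
    have h3 : a.m = 0 := by
      rw [h2, zpow_zero] at h1
      have h3 : (-1 : ℝ) < a.m := by linarith [h1.1.1]
      have h4 : (a.m : ℝ) < 1 := by linarith [h1.1.2]
      norm_cast at h3 h4
      omega
    exact Subtype.ext ((congrArg jj (KJ.ext h3 h2 : a = 1)).trans (map_one _))

theorem exists_data : ∃ (S : Type) (_ : MulAction GG S) (C : CG GG S) (D D' : DavisData C),
    Data C D D' (Lam false) := by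
  have hi := iot_all pos
  have hn := nb tree
  have hg : Grid := @grid ae1 ae2
  have hk := gk_all GG_two GG_gk
  obtain ⟨s⟩ := psiE
  obtain ⟨T, hT⟩ := tg0 pos
  obtain ⟨T', hT'⟩ := tg1 pos hi s
  obtain ⟨β, β', hβ⟩ := zIso01 pos hi T T' s hT hT'
  obtain ⟨j, j1, j2, j3⟩ := T.zmap T' T.api1 T.api2' T'.api1 T'.api2' β β' hβ
  obtain ⟨d, d1, d2, d3⟩ := dv0 pos (foldAB pos) (foldK pos) (foldL pos) T hT
  obtain ⟨dev, hd⟩ := T.devG tree hn T.api1 d
  obtain ⟨Q⟩ := T.cubG T.api1 T.api2' (cell0 pos shear T hT)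
  have hz : (![20, 20, -5, 6] : R4) ∈ T.Zc false := by
    have h4 : gg ![20, 20, -5, 6] = 1 := by
      change max |(-5 : ℝ) + 6| |(6 : ℝ) - 6| = 1
      norm_num
    have h5 : tH ![20, 20, -5, 6] = 20 := by norm_num [tH, n2]
    rw [hT.Z_f]
    exact ⟨(pos.PH_L _ (by linarith)).1.2 ⟨by linarith, h4.le⟩, h4⟩
  have sd : L2.Side GG T.jZ := ⟨T.api2'.nice, (T.jZ_emb T.api2').1, T.jZ_smul,
    T.hsg T.api1 T.api2' (flat0 pos shear T hT) _ (T.jZ_emb T.api2').2,
    T.aeG tree hn T.api1 T.api2' ae1 ae2 hg (aeIn0 pos ae1 T hT (aeU pos ae1 ae2))⟩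
  have sd' : L2.Side GG j := ⟨T'.api2'.nice, j1, j2,
    T'.hsg T'.api1 T'.api2' (flat1 pos hi shear T' s hT') _ j3,
    T'.aeG tree hn T'.api1 T'.api2' ae1 ae2 hg (aeIn1 pos hi ae1 T' s hT' (aeC pos hi ae1 ae2))⟩
  have : Nonempty T.Z := ⟨⟨_, 1, false, _, hz, rfl⟩⟩
  have := sd.nice.t2
  have := sd.nice.lc
  have := sd.nice.sc
  have : T2Space T.Z := sd.emb.isEmbedding.t2Space
  have : LocallyCompactSpace T.Z := sd.emb.locallyCompactSpace
  have : SecondCountableTopology T.Z := sd.emb.isEmbedding.secondCountableTopology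
  have := sd.cts
  have := sd.pd
  obtain ⟨R, σ, hσ, hσ'⟩ := cub_tri Q
  obtain ⟨c⟩ := sd.collar Q
  obtain ⟨c'⟩ := sd'.collar Q
  have free : ∀ (g : GG) (z : T.Z), g • z = z → g = 1 := fun g z e =>
    sd.free g (T.jZ z) (by rw [← sd.smul, e])
  obtain ⟨a, b, h1, h2⟩ := two_orbits R (R.cg free sd.cnt hk.two).free hσ hσ'
  refine ⟨R.S, inferInstance, R.cg free sd.cnt hk.two, R.davis free sd.cnt hk.two c sd,
    R.davis free sd.cnt hk.two c' sd', ⟨hk.gen, hk.gk⟩, hk.cptE,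
    ⟨pl T', ⟨fun _ _ e => e, pl_cont pos hi hT' T'.api1, ?_, fun g hg u u' e => hg ?_⟩,
      pl_inj pos hi hT' T'.api1⟩,
    R.davis_abs free sd.cnt hk.two c sd
      fun _ _ => ⟨dev true, (hd.cont true).continuousOn, (hd.inj true).injOn⟩,
    fun ψ p hp => ?_, ⟨a, b, Fin.ext (congrArg (· - 1) h1), h2⟩, cov⟩
  · rintro ⟨_, b, rfl⟩ u
    exact pl_smul pos hi hT' T'.api1 b (congrArg (kl · (q u)) (kj_jj b))
  · obtain ⟨c, i, y, h2, h3, h4⟩ := pl_form pos hi hT' T'.api1 u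
    obtain ⟨c', i', y', h5, h6, h7⟩ := pl_form pos hi hT' T'.api1 u'
    have e' : g • pl T' u = pl T' u' := e
    rw [h4, h7, T'.smul_pt _ _ h2] at e'
    exact mem_of_rel hi hT' h3 h6 ((T'.api1.pt_eq h2 h5).1 e')
  · obtain ⟨n, r, h4, h5⟩ := obs0 tree (pp tree hn) lin T hT T.api1 T.api2' d dev d1 d2 d3 hd
      ψ p hp
    exact noLS pos Ob.hobs n r h4 h5

end Vale.Agent.N260
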