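import Mathlib

/-!
# P260: the Klein bottle (definitions of the statement)
-/

namespace Vale.Agent.N260

/-- The Klein bottle: the plane modulo `(x, y) ∼ ((-1)ⁿ x + m, y + n)` for integers `m`, `n`. -/
abbrev Klein : Type :=
  Quot fun p q : ℝ × ℝ => ∃ m n : ℤ, q = ((-1) ^ n * p.1 + m, p.2 + n)

/-- `M` contains an embedded Klein bottle whose fundamental group injects. -/
def HasKlein (M : Type) [TopologicalSpace M] : Prop :=
  ∃ f : C(Klein, M), Function.Injective f ∧ ∀ x, Function.Injective (FundamentalGroup.map f x)

end Vale.Agent.N260
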