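import Vale.Agent.N260.Cov

/-!
# P260: a tower of finite index subgroups of the reflection group
-/

noncomputable section

namespace Vale.Agent.N260

open Set Topology SemidirectProduct Vale.Agent.P260Z

variable {G S : Type} [Group G] [MulAction G S] {C : CG G S}

/-- normal subgroups of finite index between `G` and the fundamental group -/
structure Good (C : CG G S) (H : Subgroup C.Gam) : Prop where
  le : H ≤ C.Pi
  normal : H.Normal
  inr_mem : ∀ g : G, (inr g : C.Gam) ∈ H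
  fin : H.FiniteIndex

theorem Good.nice {H : Subgroup C.Gam} (hH : Good C H) {D : DavisData C} (h : D.All) :
    Nice H D.Mt := by
  have := hH.fin
  have := h.basic.cts
  obtain ⟨t2, lc, sc, -, pd, fr, K, hK, hKc⟩ := h.act
  refine ⟨t2, lc, sc, ⟨fun γ => continuous_const_smul γ.1⟩, ⟨fun {K L} hK hL => ?_⟩,
    isCancelSMul_iff_eq_one_of_smul_eq.2 fun γ z e => ?_,
    ⋃ q : C.Gam ⧸ H, (fun z => (q.out)⁻¹ • z) '' K,
    isCompact_iUnion fun q => hK.image (continuous_const_smul _), fun x => ?_⟩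
  · exact Set.Finite.preimage (f := Subgroup.inclusion hH.le)
      (Subgroup.inclusion_injective hH.le).injOn (pd.finite_disjoint_inter_image hK hL)
  · exact Subgroup.inclusion_injective hH.le
      ((IsCancelSMul.eq_one_of_smul (g := Subgroup.inclusion hH.le γ) e).trans (map_one _).symm)
  · obtain ⟨g, hg⟩ := hKc x
    obtain ⟨k, hk⟩ := QuotientGroup.mk_out_eq_mul H g.1
    refine ⟨k⁻¹, mem_iUnion.2 ⟨(g.1 : C.Gam ⧸ H), _, hg, ?_⟩⟩
    change (Quotient.out _)⁻¹ • g.1 • x = (k.1)⁻¹ • x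
    rw [hk, mul_inv_rev, mul_smul, inv_smul_smul]

/-- an invariant homomorphism on the Coxeter group extends to the reflection group -/
def ext {A : Type} [Group A] (φ : C.W →* A) (h : ∀ (g : G) w, φ (C.act g w) = φ w) :
    C.Gam →* A :=
  MonoidHom.mk' (fun γ => φ γ.left) fun a b => by rw [mul_left, map_mul, h]

theorem good_pi : Good C C.Pi :=
  ⟨le_rfl, ⟨fun _ h γ => C.conj_mem h γ⟩, C.inr_mem,
    Subgroup.finiteIndex_ker (ext C.par C.par_act)⟩

open Classical DihedralGroup in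
/-- a smaller subgroup -/
theorem Good.next {H : Subgroup C.Gam} (hH : Good C H) {s t : S} (hc : C.col s = C.col t)
    (ho : ∀ g : G, g • s ≠ t) : ∃ H', Good C H' ∧ H' ≤ H ∧ H.index < H'.index := by
  let f : S → DihedralGroup (H.index + 1) := fun x =>
    if ∃ g : G, g • s = x then sr 0 else if ∃ g : G, g • t = x then sr 1 else 1
  have h1 : ∀ x, C.col x ≠ C.col s → f x = 1 := fun x hx => by
    refine (if_neg ?_).trans (if_neg ?_)
    · rintro ⟨g, rfl⟩
      exact hx (C.col_smul g s)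
    · rintro ⟨g, rfl⟩
      exact hx ((C.col_smul g t).trans hc.symm)
  have h2 : ∀ (g : G) (y x : S), (∃ k : G, k • y = g • x) ↔ ∃ k : G, k • y = x := fun g y x =>
    ⟨fun ⟨k, e⟩ => ⟨g⁻¹ * k, by rw [mul_smul, e, inv_smul_smul]⟩,
      fun ⟨k, e⟩ => ⟨g * k, by rw [mul_smul, e]⟩⟩
  let φ : C.W →* DihedralGroup (H.index + 1) := C.lift f
    (fun x => by
      simp only [f]
      split_ifs <;> simp)
    fun x y h => by
      by_cases e : C.col x = C.col s
      · rw [h1 y fun e' => C.col_ne h (e.trans e'.symm), mul_one, one_mul]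
      · rw [h1 x e, mul_one, one_mul]
  have h3 : ∀ (g : G) w, φ (C.act g w) = φ w := fun g w =>
    DFunLike.congr_fun (C.hom_ext (φ := φ.comp (C.actH g)) (ψ := φ) fun x => by
      simp only [φ, MonoidHom.comp_apply, CG.actH_gen, CG.lift_gen, f, h2]) w
  have := hH.fin
  have := hH.normal
  refine ⟨H ⊓ (ext φ h3).ker, ⟨inf_le_left.trans hH.le, inferInstance,
    fun g => ⟨hH.inr_mem g, map_one φ⟩, inferInstance⟩, inf_le_left, ?_⟩
  refine lt_of_lt_of_le ?_ (Subgroup.index_antitone inf_le_right)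
  have h4 : r 1 ∈ (ext φ h3).range := by
    refine ⟨inl (C.gen s * C.gen t), ?_⟩
    change φ (C.gen s * C.gen t) = _
    have e1 : f s = sr 0 := if_pos ⟨1, one_smul _ _⟩
    have e2 : f t = sr 1 := (if_neg fun ⟨g, e⟩ => ho g e).trans (if_pos ⟨1, one_smul _ _⟩)
    simp [φ, e1, e2]
  have h5 := Subgroup.orderOf_le_card _ (toFinite _) h4
  rw [orderOf_r_one] at h5
  rw [Subgroup.index_ker]
  exact h5

/-- the tower of subgroups -/
theorem exists_tower {s t : S} (hc : C.col s = C.col t) (ho : ∀ g : G, g • s ≠ t) :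
    ∃ H : ℕ → Subgroup C.Gam, (∀ k, Good C (H k)) ∧ (∀ k, H (k + 1) ≤ H k) ∧
      StrictMono fun k => (H k).index := by
  choose f h1 h2 h3 using fun H : {H // Good C H} => H.2.next hc ho
  let K : ℕ → {H // Good C H} := fun k => Nat.rec ⟨_, good_pi⟩ (fun _ H => ⟨f H, h1 H⟩) k
  exact ⟨fun k => (K k).1, fun k => (K k).2, fun k => h2 (K k),
    strictMono_nat_of_lt_succ fun k => h3 (K k)⟩

/-- `G` is malnormal -/
theorem maln (ha : C.Api) {γ : C.Gam} {a b : G} (h1 : a ≠ 1)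
    (h : γ * inr a * γ⁻¹ = inr b) : γ = inr γ.right := by
  have h2 : γ * inr a = inr b * γ := mul_inv_eq_iff_eq_mul.1 h
  have h3 : γ.left = C.act b γ.left := by simpa using congrArg SemidirectProduct.left h2
  have h4 : γ.right * a = b * γ.right := by simpa using congrArg SemidirectProduct.right h2
  refine SemidirectProduct.ext (by_contra fun h5 => h1 ?_) rfl
  rw [ha.act_free h5 h3.symm, one_mul] at h4
  simpa using h4

/-- the algebraic data of the Klein bottle subgroup -/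
structure KD (C : CG G S) (J : Subgroup G) : Prop where
  gen : ∃ u v : J, u ^ 2 = v ^ 2 ∧ u ≠ v ∧ Subgroup.closure {u, v} = ⊤
  gk : ∀ a b : G, a ^ 2 = b ^ 2 → a ≠ b → ∃ g : G, g * a * g⁻¹ ∈ J ∧ g * b * g⁻¹ ∈ J

/-- every copy of the Klein bottle group is conjugate into `J` -/
theorem KD.conj {J : Subgroup G} (hJ : KD C J) (χ : J →* C.Gam) (hi : Function.Injective χ)
    (hm : ∀ j, χ j ∈ C.Pi) : ∃ γ : C.Gam, ∀ j, ∃ k : J, γ * χ j * γ⁻¹ = inr k.1 := by
  obtain ⟨u, v, sq, ne, gen⟩ := hJ.gen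
  obtain ⟨γ0, a, b, ha0, hb0⟩ := C.kl_of (C.nf_of C.len_thm) (χ u) (χ v) (hm _) (hm _)
    (by rw [← map_pow, ← map_pow, sq]) fun h => ne (hi h)
  obtain ⟨g0, hga, hgb⟩ := hJ.gk a b
    (inr_injective (φ := C.act) (by
      rw [map_pow, map_pow, ← ha0, ← hb0, conj_pow, conj_pow, ← map_pow, ← map_pow, sq]))
    (fun h => ne (hi (by
      rw [h, ← hb0] at ha0
      simpa using ha0)))
  refine ⟨inr g0 * γ0, fun j => ?_⟩
  have hj : j ∈ Subgroup.closure {u, v} := gen ▸ Subgroup.mem_top j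
  induction hj using Subgroup.closure_induction with
  | mem x hx =>
    rcases hx with rfl | rfl
    · refine ⟨⟨_, hga⟩, ?_⟩
      rw [map_mul, map_mul, map_inv, ← ha0]
      group
    · refine ⟨⟨_, hgb⟩, ?_⟩
      rw [map_mul, map_mul, map_inv, ← hb0]
      group
  | one => exact ⟨1, by simp⟩
  | mul x y _ _ hx hy =>
    obtain ⟨k, hk⟩ := hx
    obtain ⟨l, hl⟩ := hy
    exact ⟨k * l, by rw [map_mul, ← conj_mul, hk, hl, Subgroup.coe_mul, map_mul]⟩
  | inv x _ hx =>
    obtain ⟨k, hk⟩ := hx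
    exact ⟨k⁻¹, by rw [map_inv, ← conj_inv, hk, Subgroup.coe_inv, map_inv]⟩

/-- a conjugate of `J` in `H` -/
def Good.cj {H : Subgroup C.Gam} (hH : Good C H) (J : Subgroup G) (γ : C.Gam) : J →* H :=
  ((MulAut.conj γ⁻¹).toMonoidHom.comp ((inr : G →* C.Gam).comp J.subtype)).codRestrict H
    fun j => hH.normal.conj_mem _ (hH.inr_mem j) γ⁻¹

theorem Good.cj_val {H : Subgroup C.Gam} (hH : Good C H) (J : Subgroup G) (γ : C.Gam) (j : J) :
    (hH.cj J γ j).1 = γ⁻¹ * inr j.1 * γ := by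
  change γ⁻¹ * inr j.1 * γ⁻¹⁻¹ = _
  rw [inv_inv]

theorem Good.cj_inj {H : Subgroup C.Gam} (hH : Good C H) (J : Subgroup G) (γ : C.Gam) :
    Function.Injective (hH.cj J γ) := fun a b h => by
  have h1 := congrArg Subtype.val h
  rw [hH.cj_val, hH.cj_val, mul_left_inj, mul_right_inj] at h1
  exact Subtype.ext (inr_injective h1)

/-- the index is an invariant of the isomorphism type -/
theorem KD.index_le {J : Subgroup G} (hJ : KD C J) {H H' : Subgroup C.Gam} (hH : Good C H)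
    (hH' : Good C H') (e : H ≃* H') : H.index ≤ H'.index := by
  have key : ∀ {A B : Subgroup C.Gam} (hA : Good C A) (hB : Good C B) (f : A ≃* B) (γ : C.Gam),
      ∃ δ : C.Gam, ∀ j, ∃ k : J, δ * (f (hA.cj J γ j)).1 * δ⁻¹ = inr k.1 := fun hA hB f γ =>
    hJ.conj ((Subgroup.subtype _).comp (f.toMonoidHom.comp (hA.cj J γ)))
      (Subtype.val_injective.comp (f.injective.comp (hA.cj_inj J γ))) fun j => hB.le (f _).2
  choose δ hδ using key hH hH' e
  obtain ⟨u, hu⟩ : ∃ u : J, u.1 ≠ 1 := by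
    obtain ⟨u, v, -, ne, -⟩ := hJ.gen
    exact ⟨u * v⁻¹, fun h => ne (mul_inv_eq_one.1 (Subtype.ext h))⟩
  have := hH'.fin
  have := hH.normal
  have := hH'.normal
  refine Nat.card_le_card_of_injective (fun x : C.Gam ⧸ H => (δ x.out : C.Gam ⧸ H'))
    fun x y h => ?_
  have h1 : (δ x.out)⁻¹ * δ y.out ∈ H' := QuotientGroup.eq.1 h
  obtain ⟨ε, hε⟩ := key hH' hH e.symm (δ x.out)
  have h2 : ∀ (γ : C.Gam) (a : H') (k : J),
      δ x.out * (a * e (hH.cj J γ u) * a⁻¹).1 * (δ x.out)⁻¹ = inr k.1 →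
        (γ : C.Gam ⧸ H) = ε := fun γ a k hk => by
    obtain ⟨l, hl⟩ := hε k
    have h3 : hH'.cj J (δ x.out) k = a * e (hH.cj J γ u) * a⁻¹ :=
      Subtype.ext (by rw [hH'.cj_val, ← hk]; group)
    rw [h3, map_mul, map_mul, map_inv, e.symm_apply_apply, Subgroup.coe_mul, Subgroup.coe_mul,
      hH.cj_val] at hl
    have h4 := maln (C.api_of C.len_thm) (γ := ε * (e.symm a).1 * γ⁻¹) (b := l) hu
      (by rw [← hl, Subgroup.coe_inv]; group)
    have h5 := (QuotientGroup.eq_one_iff _).2 (show ε * (e.symm a).1 * γ⁻¹ ∈ H by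
      rw [h4]
      exact hH.inr_mem _)
    rw [QuotientGroup.mk_mul, QuotientGroup.mk_mul, (QuotientGroup.eq_one_iff _).2 (e.symm a).2,
      mul_one, QuotientGroup.mk_inv, mul_inv_eq_one] at h5
    exact h5.symm
  obtain ⟨k, hk⟩ := hδ x.out u
  obtain ⟨l, hl⟩ := hδ y.out u
  rw [← x.out_eq', ← y.out_eq']
  exact (h2 x.out 1 k (by simpa using hk)).trans (h2 y.out ⟨_, h1⟩ l (by
    rw [← hl]
    simp only [Subgroup.coe_mul, Subgroup.coe_inv]
    group)).symm

end Vale.Agent.N260
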