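import Vale.Agent.N260.Grp

/-!
# P260: Klein bottles in the quotients
-/

noncomputable section

namespace Vale.Agent.N260

open Set Topology SemidirectProduct Vale.Agent.P260Z

variable {G S : Type} [Group G] [MulAction G S] {C : CG G S}

/-- two chambers, one of which contains a plane -/
structure Data (C : CG G S) (D D' : DavisData C) (J : Subgroup G) [MulAction J (ℝ × ℝ)] :
    Prop where
  kd : KD C J
  cpt : ∃ K : Set (ℝ × ℝ), IsCompact K ∧ ∀ y, ∃ j : J, j • y ∈ K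
  plane : ∃ p, D'.Plane J (ℝ × ℝ) (MonoidHom.id J) p ∧ Function.Injective p
  abs : D.Abs
  obs : ∀ ψ p, ¬ D.Plane J (ℝ × ℝ) ψ p
  two : ∃ s t : S, C.col s = C.col t ∧ ∀ g : G, g • s ≠ t
  cov : ∃ ρ : ℝ × ℝ → Klein, IsQuotientCoveringMap ρ J

variable {D D' : DavisData C} {J : Subgroup G} [MulAction J (ℝ × ℝ)] {H : Subgroup C.Gam}

theorem Data.no_plane (P : Data C D D' J) (hH : Good C H) (θ : J →* H)
    (hθ : Function.Injective θ) (F : ℝ × ℝ → D.Mt) (hF : Continuous F)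
    (he : ∀ (j : J) y, F (j • y) = θ j • F y)
    (hd : ∀ (δ : H) y y', δ • F y = F y' → ∃ j, θ j = δ) : False := by
  obtain ⟨K, hK, hKc⟩ := P.cpt
  obtain ⟨γ, hγ⟩ := P.kd.conj (H.subtype.comp θ) (Subtype.val_injective.comp hθ)
    fun j => hH.le (θ j).2
  choose k hk using hγ
  have hk' : ∀ j, γ * (θ j).1 * γ⁻¹ = inr (k j).1 := hk
  let ψ : J →* J := MonoidHom.mk' k fun a b => Subtype.ext (inr_injective (φ := C.act) (by
    rw [Subgroup.coe_mul, map_mul, ← hk', ← hk', ← hk', map_mul, Subgroup.coe_mul, conj_mul]))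
  have := D.all.basic.cts
  set p1 : ℝ × ℝ → D.Mt := fun y => γ • F y with hp1
  have hp1c : Continuous p1 := hF.const_smul γ
  have hp1e : ∀ (j : J) y, p1 (j • y) = D.ga (k j) (p1 y) := by
    intro j y
    simp only [hp1, DavisData.ga]
    rw [he, ← hk', smul_smul, inv_mul_cancel_right, mul_smul γ]
    rfl
  obtain ⟨e, hec, hei, hee⟩ := D.all.absorb P.abs _ (hK.image hp1c)
  have hsat : ∀ y, p1 y ∈ D.sat (p1 '' K) := fun y => by
    obtain ⟨j, hj⟩ := hKc y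
    refine mem_iUnion.2 ⟨k j⁻¹, _, ⟨_, hj, rfl⟩, ?_⟩
    rw [← hp1e, inv_smul_smul]
  have hsat' : ∀ (g : G) y, D.ga g (p1 y) ∈ D.sat (p1 '' K) := fun g y => by
    obtain ⟨g', z, hz, e1⟩ := mem_iUnion.1 (hsat y)
    refine mem_iUnion.2 ⟨g * g', z, hz, ?_⟩
    rw [← e1]
    simp [DavisData.ga, mul_smul]
  refine P.obs ψ (e ∘ p1) ⟨fun x y h => hθ (Subtype.ext ?_), hec.comp_continuous hp1c hsat,
    fun j y => ?_, fun g hg y y' h => hg ?_⟩
  · have h1 := hk' x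
    rw [show k x = k y from h, ← hk'] at h1
    simpa using h1
  · simp only [Function.comp]
    rw [hp1e, hee _ _ (hsat y)]
    rfl
  · simp only [Function.comp] at h
    rw [← hee _ _ (hsat y)] at h
    have h1 := hei (hsat' g y) (hsat y') h
    obtain ⟨j, hj⟩ := hd ⟨γ⁻¹ * inr g * γ⁻¹⁻¹, hH.normal.conj_mem _ (hH.inr_mem g) γ⁻¹⟩ y y' (by
      change (γ⁻¹ * inr g * γ⁻¹⁻¹ : C.Gam) • F y = _
      rw [inv_inv, mul_smul, mul_smul γ⁻¹, inv_smul_eq_iff]
      exact h1)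
    have h2 := hk' j
    rw [hj] at h2
    have h3 : (inr g : C.Gam) = inr (k j).1 := by
      rw [← h2]
      group
    rw [inr_injective h3]
    exact (k j).2

theorem Data.not_klein (P : Data C D D' J) (hH : Good C H) :
    ¬ HasKlein (MulAction.orbitRel.Quotient H D.Mt) := by
  rintro ⟨f, hf, hπ⟩
  obtain ⟨ρ, hρ⟩ := P.cov
  have hq := qc (hH.nice D.all)
  have := D.all.act.t2
  have := D.all.act.lc
  have := D.all.act.sc
  have := ae3.contr D.all.ae
  have := hρ.isCancelSMul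
  have := hq.isCancelSMul
  obtain ⟨w, hw⟩ := hq.surjective (f (ρ 0))
  obtain ⟨F, ⟨-, hF⟩, -⟩ := hq.isCoveringMap.existsUnique_continuousMap_lifts
    ⟨f ∘ ρ, f.continuous.comp hρ.continuous⟩ 0 w hw
  have hz : ∀ z, Quotient.mk _ (F z) = f (ρ z) := congrFun hF
  obtain ⟨θ, hθ⟩ := lift_hom2 hρ hq f F.continuous hz 0
  refine P.no_plane hH θ ((injective_iff_map_eq_one _).2 fun j hj => ?_) F F.continuous hθ
    fun δ y y' h => ?_
  · exact IsCancelSMul.eq_one_of_smul ((pi_inj_iff hρ.isCoveringMap hq.isCoveringMap f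
      F.continuous hz 0).1 (hπ _) (j • 0) (hρ.map_smul j).symm (by rw [hθ, hj, one_smul]))
  · obtain ⟨j, rfl⟩ := hρ.apply_eq_iff_mem_orbit.1 (hf (a₁ := ρ y') (a₂ := ρ y)
      (by rw [← hz, ← hz, ← h, hq.map_smul]))
    exact ⟨j, IsCancelSMul.right_cancel _ _ (F y) ((hθ j y).symm.trans h.symm)⟩

theorem Data.has_klein (P : Data C D D' J) (hH : Good C H) :
    HasKlein (MulAction.orbitRel.Quotient H D'.Mt) := by
  obtain ⟨ρ, hρ⟩ := P.cov
  obtain ⟨p, ⟨-, hp, hpe, hpd⟩, hpi⟩ := P.plane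
  have hq := qc (hH.nice D'.all)
  have := D'.all.act.t2
  have := D'.all.act.lc
  have := D'.all.act.sc
  have := ae3.contr D'.all.ae
  have hb := D'.all.basic
  have hc : Continuous fun y => D'.pt 1 (p y) := (hb.emb 1).continuous.comp hp
  have hi : Function.Injective fun y => D'.pt 1 (p y) := (hb.emb 1).injective.comp hpi
  have he : ∀ (j : J) y, D'.pt 1 (p (j • y)) = (inr j.1 : C.Gam) • D'.pt 1 (p y) := fun j y => by
    rw [hpe, D'.inr_smul_pt]
    rfl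
  obtain ⟨f, hf⟩ : ∃ f : C(Klein, MulAction.orbitRel.Quotient H D'.Mt),
      ∀ y, Quotient.mk _ (D'.pt 1 (p y)) = f (ρ y) := by
    have h1 : Function.FactorsThrough (⟨_, hq.continuous.comp hc⟩ : C(_, _))
        (⟨ρ, hρ.continuous⟩ : C(_, _)) := fun y y' h => by
      obtain ⟨j, rfl⟩ := hρ.apply_eq_iff_mem_orbit.1 h
      exact hq.apply_eq_iff_mem_orbit.2 ⟨⟨_, hH.inr_mem j⟩, (he j y').symm⟩
    exact ⟨IsQuotientMap.lift (f := ⟨ρ, hρ.continuous⟩) hρ.toIsQuotientMap _ h1, fun y =>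
      (DFunLike.congr_fun (IsQuotientMap.lift_comp (f := ⟨ρ, hρ.continuous⟩)
        hρ.toIsQuotientMap _ h1) y).symm⟩
  refine ⟨f, fun a b h => ?_, fun x => ?_⟩
  · obtain ⟨y', rfl⟩ := hρ.surjective a
    obtain ⟨y, rfl⟩ := hρ.surjective b
    rw [← hf, ← hf] at h
    obtain ⟨δ, hδ⟩ := hq.apply_eq_iff_mem_orbit.1 h
    have h3 : D'.pt (δ.1.left * C.act δ.1.right 1) (δ.1.right • p y) = D'.pt 1 (p y') := hδ
    have h4 := (D'.pt_eq.1 h3).1
    have h6 : δ.1.right ∈ J := by_contra fun hn => hpd _ hn _ _ h4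
    exact hρ.apply_eq_iff_mem_orbit.2 ⟨⟨_, h6⟩, hpi ((hpe _ _).trans h4)⟩
  · obtain ⟨y, rfl⟩ := hρ.surjective x
    exact (pi_inj_iff hρ.isCoveringMap hq.isCoveringMap f hc hf y).2 fun _ _ h => hi h

end Vale.Agent.N260
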